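import Vale.Agent.P300.Defs
import Vale.Agent.P300.CoverDefs
import Mathlib.LinearAlgebra.Projectivization.Basic
import Mathlib.RingTheory.MvPolynomial.Homogeneous
import Mathlib.Geometry.Manifold.MFDeriv.Basic
import Mathlib.AlgebraicTopology.FundamentalGroupoid.SimplyConnected

/-!
# P300 : the definitions of the final statement

Complex manifolds are Mathlib manifolds `[ChartedSpace E X] [IsManifold 𝓘(ℂ, E) ω X]` modelled on
the complex normed space `E`. `HolomorphicallyConvex` is in `P300/Defs.lean`,
`IsHolomorphicCovering` in `P300/CoverDefs.lean`.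
-/

open scoped Manifold ContDiff LinearAlgebra.Projectivization

namespace Vale.Agent.P300.Final

/-- The map `s : X → F` from the complex manifold `X` (modelled on `E`) to a complex normed space
is holomorphic on the open set `W`. -/
def IsHolomorphicOn (E : Type*) [NormedAddCommGroup E] [NormedSpace ℂ E]
    {F : Type*} [NormedAddCommGroup F] [NormedSpace ℂ F]
    {X : Type*} [TopologicalSpace X] [ChartedSpace E X] (s : X → F) (W : Set X) : Prop :=
  IsOpen W ∧ ContMDiffOn 𝓘(ℂ, E) 𝓘(ℂ, F) ω s W

/-- The differential of `s : X → F` at the point `y` of the complex manifold `X` (modelled on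
`E`), as a map from the tangent space `E` to `F`. -/
noncomputable def differential (E : Type*) [NormedAddCommGroup E] [NormedSpace ℂ E]
    {F : Type*} [NormedAddCommGroup F] [NormedSpace ℂ F]
    {X : Type*} [TopologicalSpace X] [ChartedSpace E X] (s : X → F) (y : X) : E → F :=
  mfderiv 𝓘(ℂ, E) 𝓘(ℂ, F) s y

/-- The differential of `s : X → F` at `y` maps no nonzero tangent vector `v` to a complex
multiple of the vector `s y`. (When `s` is a family of homogeneous coordinates of a map from `X`
to a projective space, this says that the differential of this map is injective at `y`.) -/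
def IsImmersiveModScalars (E : Type*) [NormedAddCommGroup E] [NormedSpace ℂ E]
    {F : Type*} [NormedAddCommGroup F] [NormedSpace ℂ F]
    {X : Type*} [TopologicalSpace X] [ChartedSpace E X] (s : X → F) (y : X) : Prop :=
  ∀ (v : E) (c : ℂ), differential E s y v = c • s y → v = 0

/-- The vector `s y` is nonzero and represents the point `Φ y` of the projective space of `F`. -/
def IsHomogeneousCoords {F : Type*} [NormedAddCommGroup F] [NormedSpace ℂ F]
    {X : Type*} (Φ : X → ℙ ℂ F) (s : X → F) (y : X) : Prop :=
  ∃ h : s y ≠ 0, Φ y = Projectivization.mk ℂ (s y) h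

/-- The map `Φ` from the complex manifold `X` (modelled on `E`) to the projective space `ℙ(F)` of
a complex normed space `F` (below: `F = ℂᴺ⁺¹`) is a holomorphic immersion: near every point of `X`
it is given by a holomorphic map `s` to `F` without zeros (homogeneous coordinates), and no nonzero
tangent vector `v` is mapped by the differential of `s` to a multiple of `s` (so that the
differential of `Φ` is injective). -/
def IsProjectiveImmersion (E : Type*) [NormedAddCommGroup E] [NormedSpace ℂ E]
    {F : Type*} [NormedAddCommGroup F] [NormedSpace ℂ F]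
    {X : Type*} [TopologicalSpace X] [ChartedSpace E X] (Φ : X → ℙ ℂ F) : Prop :=
  ∀ x : X, ∃ (W : Set X) (s : X → F), x ∈ W ∧ IsHolomorphicOn E s W ∧
    (∀ y ∈ W, IsHomogeneousCoords Φ s y) ∧ ∀ y ∈ W, IsImmersiveModScalars E s y

/-- `S` is a set of homogeneous polynomials, and the set `Z` of points of `ℙᴺ(ℂ)` is the set of
their common zeros. -/
def IsZeroSetOf {N : ℕ} (S : Set (MvPolynomial (Fin (N + 1)) ℂ))
    (Z : Set (ℙ ℂ (Fin (N + 1) → ℂ))) : Prop :=
  (∀ P ∈ S, ∃ d, P.IsHomogeneous d) ∧
    ∀ (z : Fin (N + 1) → ℂ) (hz : z ≠ 0),
      Projectivization.mk ℂ z hz ∈ Z ↔ ∀ P ∈ S, MvPolynomial.eval z P = 0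

/-- The complex manifold `X` is the complex manifold of a smooth projective variety: some
injective holomorphic immersion of `X` into a projective space has an algebraic image (the zero
set of homogeneous polynomials). For a compact connected `X` this says that `X` is biholomorphic
to the smooth connected projective variety which is its image. -/
def IsSmoothProjective (E : Type*) [NormedAddCommGroup E] [NormedSpace ℂ E]
    (X : Type*) [TopologicalSpace X] [ChartedSpace E X] : Prop :=
  ∃ (N : ℕ) (Φ : X → ℙ ℂ (Fin (N + 1) → ℂ)), Function.Injective Φ ∧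
    IsProjectiveImmersion E Φ ∧ ∃ S, IsZeroSetOf S (Set.range Φ)

/-- `p : V → X` is a universal covering of the complex manifold `X`: `V` is a simply connected
Hausdorff complex manifold and `p` is a holomorphic covering map. -/
structure IsUniversalCovering (E : Type*) [NormedAddCommGroup E] [NormedSpace ℂ E]
    {V X : Type*} [TopologicalSpace V] [ChartedSpace E V] [TopologicalSpace X] [ChartedSpace E X]
    (p : V → X) : Prop where
  isManifold : IsManifold 𝓘(ℂ, E) ω V
  t2Space : T2Space V
  simplyConnected : SimplyConnectedSpace V
  covering : IsHolomorphicCovering E p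

end Vale.Agent.P300.Final
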