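import Vale.Agent.P300.Final.Defs
import Mathlib.Algebra.MvPolynomial.PDeriv
import Mathlib.LinearAlgebra.Dimension.Finrank

/-!
# P300 : the definitions of the final statement with the Jacobian criterion
-/

open scoped Manifold ContDiff LinearAlgebra.Projectivization

namespace Vale.Agent.P300.Final

/-- The value `∑ v_b ∂P/∂z_b (z)` at `v` of the differential of the polynomial `P` at `z`. -/
noncomputable def polynomialDifferential {n : ℕ} (P : MvPolynomial (Fin n) ℂ)
    (z v : Fin n → ℂ) : ℂ :=
  ∑ b, v b * MvPolynomial.eval z (MvPolynomial.pderiv b P)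

/-- The common kernel of the differentials at `z` of the polynomials `P ∈ S`, i.e. the kernel of
the Jacobian matrix `(∂P/∂z_b (z))`. -/
def jacobianKernel {n : ℕ} (S : Set (MvPolynomial (Fin n) ℂ)) (z : Fin n → ℂ) :
    Submodule ℂ (Fin n → ℂ) where
  carrier := {v | ∀ P ∈ S, polynomialDifferential P z v = 0}
  zero_mem' := fun P _ => by simp [polynomialDifferential]
  add_mem' := fun {v w} hv hw P hP => by
    have h1 := hv P hP
    have h2 := hw P hP
    simp only [polynomialDifferential] at h1 h2 ⊢
    simp only [Pi.add_apply, add_mul, Finset.sum_add_distrib, h1, h2, add_zero]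
  smul_mem' := fun c v hv P hP => by
    have h1 := hv P hP
    simp only [polynomialDifferential] at h1 ⊢
    simp only [Pi.smul_apply, smul_eq_mul, mul_assoc, ← Finset.mul_sum, h1, mul_zero]

/-- `Z ⊆ ℙᴺ(ℂ)` is the set of common zeros of the set `S` of homogeneous polynomials, and at every
point of `Z` the kernel of the Jacobian matrix of `S` (the tangent space of the cone over `Z`) has
dimension `d + 1`, i.e. the Jacobian matrix has rank `N - d`: for `Z` of dimension `d` this is the
Jacobian criterion for the nonsingularity of `Z`. -/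
def IsNonsingularZeroSetOf (d : ℕ) {N : ℕ} (S : Set (MvPolynomial (Fin (N + 1)) ℂ))
    (Z : Set (ℙ ℂ (Fin (N + 1) → ℂ))) : Prop :=
  IsZeroSetOf S Z ∧ ∀ (z : Fin (N + 1) → ℂ) (hz : z ≠ 0),
    Projectivization.mk ℂ z hz ∈ Z → Module.finrank ℂ (jacobianKernel S z) = d + 1

/-- The complex manifold `X` (modelled on `E`) is the complex manifold of a nonsingular projective
variety: some injective holomorphic immersion of `X` into a projective space has as image an
algebraic set which is nonsingular of dimension `dim E` by the Jacobian criterion. -/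
def IsNonsingularProjective (E : Type*) [NormedAddCommGroup E] [NormedSpace ℂ E]
    (X : Type*) [TopologicalSpace X] [ChartedSpace E X] : Prop :=
  ∃ (N : ℕ) (Φ : X → ℙ ℂ (Fin (N + 1) → ℂ)), Function.Injective Φ ∧
    IsProjectiveImmersion E Φ ∧
    ∃ S, IsNonsingularZeroSetOf (Module.finrank ℂ E) S (Set.range Φ)

end Vale.Agent.P300.Final
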