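import Vale.Agent.P300.Final.Defs
import Vale.Agent.P300.H232.End

/-!
# P300 : the vocabulary of `H232/Stmt.lean` implies the vocabulary of the final statement
-/

open scoped Manifold ContDiff LinearAlgebra.Projectivization

namespace Vale.Agent.P300.Final

variable {E : Type*} [NormedAddCommGroup E] [NormedSpace ℂ E]

theorem isProjectiveImmersion_iff {X : Type*} [TopologicalSpace X] [ChartedSpace E X] {N : ℕ}
    {Φ : X → ℙ ℂ (Fin (N + 1) → ℂ)} :
    P300.IsProjectiveImmersion E Φ ↔ Final.IsProjectiveImmersion E Φ := by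
  constructor
  · intro h x
    obtain ⟨W, s, h1, h2, h3, h4, h5⟩ := h x
    exact ⟨W, s, h2, ⟨h1, h3⟩, h4, h5⟩
  · intro h x
    obtain ⟨W, s, h2, ⟨h1, h3⟩, h4, h5⟩ := h x
    exact ⟨W, s, h1, h2, h3, h4, h5⟩

theorem isSmoothProjective_iff {X : Type*} [TopologicalSpace X] [ChartedSpace E X] :
    P300.IsSmoothProjective E X ↔ Final.IsSmoothProjective E X := by
  constructor
  · rintro ⟨N, Φ, h1, h2, S, h3, h4⟩
    exact ⟨N, Φ, h1, isProjectiveImmersion_iff.1 h2, S, h3, h4⟩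
  · rintro ⟨N, Φ, h1, h2, S, h3, h4⟩
    exact ⟨N, Φ, h1, isProjectiveImmersion_iff.2 h2, S, h3, h4⟩

theorem isUniversalCovering_iff {V X : Type*} [TopologicalSpace V] [ChartedSpace E V]
    [TopologicalSpace X] [ChartedSpace E X] {p : V → X} :
    P300.IsUniversalCovering E p ↔ Final.IsUniversalCovering E p :=
  ⟨fun h => ⟨h.1, h.2, h.3, h.4⟩, fun h => ⟨h.1, h.2, h.3, h.4⟩⟩

/-- **The final statement from `H232.DisproofStatement`.** -/
theorem of_old (h : H232.DisproofStatement) :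
    ∃ (X : Type) (_ : TopologicalSpace X) (_ : ChartedSpace (Fin 2 → ℂ) X),
      (IsManifold 𝓘(ℂ, Fin 2 → ℂ) ω X ∧ T2Space X ∧ CompactSpace X ∧ ConnectedSpace X ∧
        IsSmoothProjective (Fin 2 → ℂ) X) ∧
      (∃ (V : Type) (_ : TopologicalSpace V) (_ : ChartedSpace (Fin 2 → ℂ) V) (p : V → X),
        IsUniversalCovering (Fin 2 → ℂ) p) ∧
      ∀ (V : Type) (_ : TopologicalSpace V) (_ : ChartedSpace (Fin 2 → ℂ) V) (p : V → X),
        IsUniversalCovering (Fin 2 → ℂ) p → ¬ HolomorphicallyConvex (Fin 2 → ℂ) V := by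
  obtain ⟨X, tX, cX, ⟨h1, h2, h3, h4, h5⟩, ⟨V, tV, cV, p, h6⟩, h7⟩ := h
  exact ⟨X, tX, cX, ⟨h1, h2, h3, h4, isSmoothProjective_iff.1 h5⟩,
    ⟨V, tV, cV, p, isUniversalCovering_iff.1 h6⟩,
    fun W tW cW q hq => h7 W tW cW q (isUniversalCovering_iff.2 hq)⟩

end Vale.Agent.P300.Final
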