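import Vale.Agent.P300.Final.DefsJ
import Vale.Agent.P300.Final.Old
import Vale.Agent.P300.H232.StmtJ

/-!
# P300 : the Jacobian form of the final statement from `H232/StmtJ.lean`
-/

open scoped Manifold ContDiff LinearAlgebra.Projectivization

namespace Vale.Agent.P300.Final

variable {E : Type*} [NormedAddCommGroup E] [NormedSpace ℂ E]

theorem jacobianKernel_eq {n : ℕ} (S : Set (MvPolynomial (Fin n) ℂ)) (z : Fin n → ℂ) :
    P300.jacobianKernel S z = Final.jacobianKernel S z := rfl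

theorem isNonsingularProjective_of_old {X : Type*} [TopologicalSpace X] [ChartedSpace E X]
    (h : P300.IsSmoothProjectiveVariety E X) : Final.IsNonsingularProjective E X := by
  obtain ⟨N, Φ, h1, h2, S, h3, h4⟩ := h
  exact ⟨N, Φ, h1, isProjectiveImmersion_iff.1 h2, S, ⟨h3, fun z hz => (h4 z hz).1⟩,
    fun z hz => (h4 z hz).2⟩

/-- The Jacobian form implies the form of `Final/Defs.lean`. -/
theorem IsNonsingularProjective.isSmoothProjective {X : Type*} [TopologicalSpace X]
    [ChartedSpace E X] (h : IsNonsingularProjective E X) : IsSmoothProjective E X := by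
  obtain ⟨N, Φ, h1, h2, S, h3, -⟩ := h
  exact ⟨N, Φ, h1, h2, S, h3⟩

/-- **The Jacobian form of the final statement from `H232.DisproofStatementJ`.** -/
theorem of_oldJ (h : H232.DisproofStatementJ) :
    ∃ (X : Type) (_ : TopologicalSpace X) (_ : ChartedSpace (Fin 2 → ℂ) X),
      (IsManifold 𝓘(ℂ, Fin 2 → ℂ) ω X ∧ T2Space X ∧ CompactSpace X ∧ ConnectedSpace X ∧
        IsNonsingularProjective (Fin 2 → ℂ) X) ∧
      (∃ (V : Type) (_ : TopologicalSpace V) (_ : ChartedSpace (Fin 2 → ℂ) V) (p : V → X),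
        IsUniversalCovering (Fin 2 → ℂ) p) ∧
      ∀ (V : Type) (_ : TopologicalSpace V) (_ : ChartedSpace (Fin 2 → ℂ) V) (p : V → X),
        IsUniversalCovering (Fin 2 → ℂ) p → ¬ HolomorphicallyConvex (Fin 2 → ℂ) V := by
  obtain ⟨X, tX, cX, ⟨h1, h2, h3, h4, h5⟩, ⟨V, tV, cV, p, h6⟩, h7⟩ := h
  exact ⟨X, tX, cX, ⟨h1, h2, h3, h4, isNonsingularProjective_of_old h5⟩,
    ⟨V, tV, cV, p, isUniversalCovering_iff.1 h6⟩,
    fun W tW cW q hq => h7 W tW cW q (isUniversalCovering_iff.2 hq)⟩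

end Vale.Agent.P300.Final
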